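import Vale.Agent.P216.V651.AbsPol
import Vale.Agent.P216.V670.Push

/-!
# P216-V, (F): `PSys`, `Pd`, `Loss` pass to `[b]`

`PSys.pol`: adjoin `b` with `d b = y` to the base and the hybrid; `y` restricts to `0` on the
fibre. The loss is the same.
-/

open Polynomial

namespace Vale.Agent.P216.V651

open V609 H923G V670

universe w u₁ u₂ u₃ v

/-- the input for `[b]`: a closed class of odd degree in the bases, which vanishes on the fibres -/
structure PSysY {k : Type w} [Field k] {ι : Type v} [Preorder ι] (S : PSys.{w, u₁, u₂, u₃, v} k ι)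
    (m : ℕ) where
  y : ∀ i, S.B i
  mem : ∀ i, y i ∈ (S.C i).deg (m + 1)
  cl : ∀ i, (S.C i).d (y i) = 0
  res : ∀ i j h, (S.β i j h).f (y i) = y j
  fib : ∀ t i, (S.rO t i).f ((S.φ t i).f (y i)) = 0

variable {k : Type w} [Field k] {ι : Type v} [Preorder ι] (S : PSys.{w, u₁, u₂, u₃, v} k ι)
  {m : ℕ} (hm : Even m) (h2 : (2 : k) ≠ 0) (Y : PSysY S m)

variable {S} in
theorem PSysY.r_y (s t : ℝ) (i j : ι) (h : t ≤ s) (h' : i ≤ j) :
    (S.r s t i j h h').f ((S.φ s i).f (Y.y i)) = (S.φ t j).f (Y.y j) := by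
  rw [S.r_φ, Y.res]

/-- **`PSys` passes to `[b]`** -/
noncomputable def psysPol : PSys.{w, u₁, u₂, u₃, v} k ι where
  B i := (S.B i)[X]
  C i := pol (S.C i) hm h2 (Y.mem i) (Y.cl i)
  β i j h := polMap (S.β i j h) hm h2 (Y.mem i) (Y.cl i) (Y.mem j) (Y.cl j) (Y.res i j h)
  W t i := (S.W t i)[X]
  D t i := (S.D t i).pol hm h2 ((S.φ t i).deg' (Y.mem i)) ((S.φ t i).d_closed (Y.cl i))
    ((S.φ t i).central_odd (Y.mem i) hm.add_one)
  r s t i j h h' := (S.φ s i).polMap hm h2 (Y.mem i) (Y.cl i) (S.φ t j) (S.r s t i j h h')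
    (Y.mem j) (Y.cl j) (Y.r_y s t i j h h')
  φ t i := (S.φ t i).pol hm h2 (Y.mem i) (Y.cl i)
  L t i := LX (S.L t i)
  Q t i := S.Q t i
  O t i := S.O t i
  σ s t i j h h' := S.σ s t i j h h'
  rO t i := (S.rO t i).polZero hm h2 ((S.φ t i).deg' (Y.mem i)) ((S.φ t i).d_closed (Y.cl i))
    ((S.φ t i).central_odd (Y.mem i) hm.add_one) (Y.fib t i)
  β_β i j l h h' b := by
    ext n
    rw [polMap_apply, polMap_apply, polMap_apply, coeff_mapAlgHom_apply, coeff_mapAlgHom_apply,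
      coeff_mapAlgHom_apply, S.β_β]
  r_r s t u i j l h h₁ h' h₁' w := by
    ext n
    rw [CHom.polMap_coeff, CHom.polMap_coeff, CHom.polMap_coeff, S.r_r]
  r_φ s t i j h h' b := by
    ext n
    rw [CHom.polMap_coeff, CHom.pol_coeff, CHom.pol_coeff, S.r_φ, polMap_apply,
      coeff_mapAlgHom_apply]
  r_L s t i j h h' {n w} hw a := by
    rw [CHom.polMap_coeff]
    exact S.r_L s t i j h h' (hw a)
  rO_r s t i j h h' w := by
    rw [NDga.Hom.polZero_apply, NDga.Hom.polZero_apply, CHom.polMap_coeff, S.rO_r]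
  fil t i := fil_pol hm h2 (Y.mem i) (Y.cl i) (S.fil t i)
  rO_L t i {q w} hw hd := by
    rw [NDga.Hom.polZero_apply]
    refine S.rO_L t i (hw 0) ?_
    have h3 := hd 0
    rwa [Nat.zero_mul, NDga.degS_zero] at h3

variable {S}

/-- **`Pd` passes to `[b]`** -/
theorem pd_psysPol (hm0 : 0 < m) {s t : ℝ} {i j : ι} {h : t ≤ s} {h' : i ≤ j} {q : ℕ}
    (H : S.Pd s t i j h h' q) : (psysPol S hm h2 Y).Pd s t i j h h' q := by
  obtain ⟨A, iA, ⟨P⟩⟩ := H
  exact ⟨A, iA, ⟨pushPol hm h2 (Y.mem i) (Y.cl i) (Y.mem j) (Y.cl j) (Y.res i j h') (Y.fib s i)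
    (S.fil s i) (S.fil t j) hm0 (Y.r_y s t i j h h') P⟩⟩

/-- **`Loss` passes to `[b]`, with the same constant** -/
theorem loss_psysPol (hm0 : 0 < m) {t₀ c : ℝ} (H : S.Loss t₀ c) :
    (psysPol S hm h2 Y).Loss t₀ c where
  nonneg := H.nonneg
  pd s t h ht i q := by
    obtain ⟨j, h', P⟩ := H.pd s t h ht i q
    exact ⟨j, h', pd_psysPol hm h2 Y hm0 P⟩

end Vale.Agent.P216.V651
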