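import Vale.Agent.P216.V706.B1.Rel
import Mathlib.Algebra.Polynomial.Derivative
import Mathlib.Algebra.Polynomial.AlgebraMap

/-!
# P216-V, B1 (iii): adjoining an even generator `b` with `d b = y`

`Cdga.pol`: the dga `C [b]`, `|b| = m` even, `y ∈ C` closed of degree `m + 1`. Carrier: polynomials,
`X = b` central. `RelLt`, `New`, `QIso` pass from `φ : S → C` to `S [b] → C [b]`.
`acy_pol`: `Λ(y) [b]` is acyclic (characteristic zero).
-/

open Polynomial

namespace Vale.Agent.P216.V651

open Vale.Agent.P216.V609 Vale.Agent.P216.V706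

variable {k : Type*} [Field k] {A A' : Type*} [Ring A] [Algebra k A] [Ring A'] [Algebra k A']

/-! ### Coefficientwise linear maps -/

section cw

variable (D : A →ₗ[k] A)

/-- a linear map applied to the coefficients -/
noncomputable def cw : A[X] →ₗ[k] A[X] :=
  Polynomial.lsum fun i => ((monomial i : A →ₗ[A] A[X]).restrictScalars k) ∘ₗ D

@[simp] theorem cw_monomial (i : ℕ) (a : A) : cw D (monomial i a) = monomial i (D a) := by
  rw [cw, Polynomial.lsum_apply, Polynomial.sum_monomial_index]
  · rfl
  · simp

@[simp] theorem cw_coeff (p : A[X]) (n : ℕ) : (cw D p).coeff n = D (p.coeff n) := by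
  induction p using Polynomial.induction_on' with
  | add p q hp hq => rw [map_add, coeff_add, hp, hq, coeff_add, map_add]
  | monomial i a =>
    rw [cw_monomial, coeff_monomial, coeff_monomial]
    split_ifs
    · rfl
    · rw [map_zero]

end cw

/-- the differential of `C [b]` -/
noncomputable def pd (C : Cdga k A) (y : A) : A[X] →ₗ[k] A[X] where
  toFun p := cw C.d p + derivative (mapAlgHom C.sg p) * Polynomial.C y
  map_add' p q := by
    rw [map_add, map_add, map_add, add_mul]
    abel
  map_smul' c p := by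
    rw [map_smul, map_smul, RingHom.id_apply, smul_add]
    congr 1
    rw [← smul_mul_assoc]
    congr 1
    ext n
    simp only [coeff_derivative, coeff_smul, smul_mul_assoc]

theorem pd_apply (C : Cdga k A) (y : A) (p : A[X]) :
    pd C y p = cw C.d p + derivative (mapAlgHom C.sg p) * Polynomial.C y := rfl

theorem pd_coeff (C : Cdga k A) (y : A) (p : A[X]) (n : ℕ) :
    (pd C y p).coeff n = C.d (p.coeff n) + C.sg (p.coeff (n + 1)) * ((n : A) + 1) * y := by
  rw [pd_apply, coeff_add, cw_coeff, coeff_mul_C, coeff_derivative, coeff_mapAlgHom_apply]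

section pol

variable (C : Cdga k A) {m : ℕ} (hm : Even m) (h2 : (2 : k) ≠ 0) {y : A} (hy : y ∈ C.deg (m + 1))
  (hdy : C.d y = 0)

include hy hm in
theorem C_mul (p : A[X]) : Polynomial.C y * p = mapAlgHom C.sg p * Polynomial.C y := by
  ext n
  rw [coeff_C_mul, coeff_mul_C, coeff_mapAlgHom_apply]
  exact C.comm_odd hy hm.add_one _

theorem sg_derivative (p : A[X]) :
    mapAlgHom C.sg (derivative p) = derivative (mapAlgHom C.sg p) := by
  ext n
  rw [coeff_mapAlgHom_apply, coeff_derivative, coeff_derivative, coeff_mapAlgHom_apply, map_mul,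
    map_add, map_natCast, map_one]

theorem cw_derivative (p : A[X]) : cw C.d (derivative p) = derivative (cw C.d p) := by
  ext n
  rw [cw_coeff, coeff_derivative, coeff_derivative, cw_coeff]
  have h1 : ∀ (a : A) (j : ℕ), a * ((j : A) + 1) = (j + 1 : ℕ) • a := fun a j => by
    rw [nsmul_eq_mul, Nat.cast_add, Nat.cast_one]
    exact ((Nat.cast_commute j a).symm.add_right (Commute.one_right a)).eq
  rw [h1, h1, map_nsmul]

theorem cw_mul (p q : A[X]) :
    cw C.d (p * q) = cw C.d p * q + mapAlgHom C.sg p * cw C.d q := by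
  ext n
  simp only [cw_coeff, coeff_add, coeff_mul, map_sum, C.leib, coeff_mapAlgHom_apply,
    Finset.sum_add_distrib]

theorem cw_cw (p : A[X]) : cw C.d (cw C.d p) = 0 := by
  ext n
  simp only [cw_coeff, C.d_d, coeff_zero]

theorem sg_cw (p : A[X]) : mapAlgHom C.sg (cw C.d p) = -cw C.d (mapAlgHom C.sg p) := by
  ext n
  simp only [cw_coeff, coeff_mapAlgHom_apply, C.sg_d, coeff_neg]

theorem cw_C (a : A) : cw C.d (Polynomial.C a) = Polynomial.C (C.d a) := by
  rw [← monomial_zero_left, cw_monomial, monomial_zero_left]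

/-- the degrees of `C [b]` -/
def pdeg (C : Cdga k A) (m n : ℕ) : Submodule k A[X] where
  carrier := {p | ∀ i, p.coeff i ∈ C.degS (i * m) n}
  add_mem' := fun ha hb i => by
    rw [coeff_add]
    exact Submodule.add_mem _ (ha i) (hb i)
  zero_mem' := fun i => by
    rw [coeff_zero]
    exact Submodule.zero_mem _
  smul_mem' := fun c _ h i => by
    rw [coeff_smul]
    exact Submodule.smul_mem _ c (h i)

theorem mem_pdeg {n : ℕ} {p : A[X]} : p ∈ pdeg C m n ↔ ∀ i, p.coeff i ∈ C.degS (i * m) n := Iff.rfl

theorem degS_zero (n : ℕ) : C.degS 0 n = C.deg n := by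
  have := C.degS_add 0 n
  rwa [add_zero] at this

theorem monomial_mem {n : ℕ} {i : ℕ} {a : A} (h : a ∈ C.degS (i * m) n) :
    monomial i a ∈ pdeg C m n := by
  intro j
  rw [coeff_monomial]
  split_ifs with h1
  · rw [← h1]
    exact h
  · exact Submodule.zero_mem _

theorem C_mem {n : ℕ} {a : A} (h : a ∈ C.deg n) : Polynomial.C a ∈ pdeg C m n := by
  rw [← monomial_zero_left]
  refine monomial_mem C ?_
  rwa [Nat.zero_mul, degS_zero]

theorem sg_mem {n : ℕ} {p : A[X]} (hp : p ∈ pdeg C m n) (i : ℕ) (l : ℕ) (hl : i * m = l) :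
    C.sg (p.coeff i) ∈ C.degS l n := by
  subst hl
  rcases C.mem_degS (hp i) with h | ⟨j, h, h1⟩
  · rw [h, map_zero]
    exact Submodule.zero_mem _
  · rw [C.sg_deg h1]
    exact Submodule.smul_mem _ _ (hp i)

/-- **The dga `C [b]`**, `|b| = m` even, `d b = y`. -/
noncomputable def pol : Cdga k A[X] where
  deg n := pdeg C m n
  sg := mapAlgHom C.sg
  d := pd C y
  one_mem := by
    rw [← Polynomial.C_1]
    exact C_mem C C.one_mem
  mul_mem := by
    intro p q a b ha hb i
    rw [coeff_mul]
    refine Submodule.sum_mem _ fun x hx => ?_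
    have hx' : x.1 + x.2 = i := Finset.mem_antidiagonal.1 hx
    rcases C.mem_degS (ha x.1) with h | ⟨j, h, h1⟩
    · rw [h, zero_mul]
      exact Submodule.zero_mem _
    rcases C.mem_degS (hb x.2) with h' | ⟨j', h', h1'⟩
    · rw [h', mul_zero]
      exact Submodule.zero_mem _
    refine C.degS_of ?_ (C.mul_mem h1 h1')
    rw [h, h', ← hx']
    ring
  sg_deg := by
    intro p a ha
    ext n
    rw [coeff_mapAlgHom_apply, coeff_smul]
    rcases C.mem_degS (ha n) with h | ⟨j, h, h1⟩
    · rw [h, map_zero, smul_zero]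
    · rw [C.sg_deg h1, h, pow_add, (hm.mul_left n).neg_one_pow, mul_one]
  sg_sg a := by
    ext n
    rw [coeff_mapAlgHom_apply, coeff_mapAlgHom_apply, C.sg_sg]
  sg_d a := by
    rw [pd_apply, pd_apply, map_add, sg_cw, map_mul, sg_derivative, neg_add]
    congr 1
    rw [show mapAlgHom C.sg (Polynomial.C y) = -Polynomial.C y by
      rw [coe_mapAlgHom, map_C, RingHom.coe_coe, C.sg_of_odd hy hm.add_one, map_neg], mul_neg]
  comm := by
    intro p a ha b
    have key : ∀ (q : ℕ) (b : A[X]) (n : ℕ), ((mapAlgHom C.sg)^[q] b).coeff n =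
        C.sg^[q] (b.coeff n) := by
      intro q
      induction q with
      | zero => intro b n; rfl
      | succ q ih =>
        intro b n
        rw [Function.iterate_succ_apply', Function.iterate_succ_apply', coeff_mapAlgHom_apply, ih]
    ext n
    rw [coeff_mul, coeff_mul, ← Finset.Nat.sum_antidiagonal_swap]
    refine Finset.sum_congr rfl fun x _ => ?_
    rw [key, Prod.fst_swap, Prod.snd_swap]
    rcases C.mem_degS (ha x.2) with h | ⟨j, h, h1⟩
    · rw [h, zero_mul, mul_zero]
    · rw [C.comm h1]
      congr 1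
      rw [h]
      rcases Nat.even_or_odd j with hj | hj
      · rw [C.sg_iter_even hj, C.sg_iter_even (hj.add (hm.mul_left _))]
      · rw [C.sg_iter_odd hj, C.sg_iter_odd (hj.add_even (hm.mul_left _))]
  d_mem := by
    intro p a ha i
    rw [pd_coeff]
    refine Submodule.add_mem _ ?_ ?_
    · rcases C.mem_degS (ha i) with h | ⟨j, h, h1⟩
      · rw [h, map_zero]
        exact Submodule.zero_mem _
      · exact C.degS_of (by rw [h]; ring) (C.d_mem h1)
    · rcases C.mem_degS (ha (i + 1)) with h | ⟨j, h, h1⟩
      · rw [h, map_zero, zero_mul, zero_mul]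
        exact Submodule.zero_mem _
      · have h3 : C.sg (a.coeff (i + 1)) * ((i : A) + 1) * y =
            (i + 1 : ℕ) • (C.sg (a.coeff (i + 1)) * y) := by
          rw [nsmul_eq_mul, Nat.cast_add, Nat.cast_one, ← mul_assoc]
          congr 1
          exact ((Nat.cast_commute i _).symm.add_right (Commute.one_right _)).eq
        rw [h3, C.sg_deg h1, smul_mul_assoc]
        refine nsmul_mem (Submodule.smul_mem _ _ ?_) _
        refine C.degS_of ?_ (C.mul_mem h1 hy)
        rw [h]
        ring
  d_d a := by
    have h3 : C.sg y = -y := C.sg_of_odd hy hm.add_one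
    have e1 : pd C y (pd C y a) = cw C.d (cw C.d a) +
        (cw C.d (derivative (mapAlgHom C.sg a) * Polynomial.C y) +
          derivative (mapAlgHom C.sg (cw C.d a)) * Polynomial.C y) +
        derivative (mapAlgHom C.sg (derivative (mapAlgHom C.sg a) * Polynomial.C y)) *
          Polynomial.C y := by
      rw [pd_apply C y (pd C y a), pd_apply, map_add (cw C.d), map_add (mapAlgHom C.sg),
        map_add derivative, add_mul]
      abel
    have e2 : cw C.d (derivative (mapAlgHom C.sg a) * Polynomial.C y) =
        derivative (cw C.d (mapAlgHom C.sg a)) * Polynomial.C y := by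
      rw [cw_mul, cw_C, hdy, map_zero, mul_zero, add_zero, cw_derivative]
    have e3 : mapAlgHom C.sg (Polynomial.C y) = -Polynomial.C y := by
      rw [coe_mapAlgHom, map_C, RingHom.coe_coe, h3, map_neg]
    have e4 : derivative (mapAlgHom C.sg (derivative (mapAlgHom C.sg a) * Polynomial.C y)) *
        Polynomial.C y = 0 := by
      rw [map_mul, e3, mul_neg, map_neg, derivative_mul, derivative_C, mul_zero, add_zero,
        neg_mul, mul_assoc, ← Polynomial.C_mul, C.sq_odd h2 hy hm.add_one, map_zero, mul_zero,
        neg_zero]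
    rw [e1, e2, e4, cw_cw, sg_cw, map_neg, neg_mul, add_neg_cancel, zero_add, add_zero]
  leib a b := by
    rw [pd_apply, pd_apply, pd_apply, cw_mul, map_mul, derivative_mul, add_mul, add_mul, mul_add,
      mul_assoc (derivative (mapAlgHom C.sg a)) (Polynomial.C y) b, C_mul C hm hy b,
      mul_assoc (derivative (mapAlgHom C.sg a)), mul_assoc (mapAlgHom C.sg a)]
    abel

theorem mem_pol_deg {n : ℕ} {p : A[X]} :
    p ∈ (pol C hm h2 hy hdy).deg n ↔ ∀ i, p.coeff i ∈ C.degS (i * m) n := Iff.rfl

theorem pol_d (p : A[X]) : (pol C hm h2 hy hdy).d p = pd C y p := rfl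

theorem pol_sg (p : A[X]) : (pol C hm h2 hy hdy).sg p = mapAlgHom C.sg p := rfl

theorem pd_C (a : A) : pd C y (Polynomial.C a) = Polynomial.C (C.d a) := by
  rw [pd_apply, cw_C, coe_mapAlgHom, map_C, derivative_C, zero_mul, add_zero]

theorem pd_monomial (i : ℕ) (a : A) : pd C y (monomial i a) =
    monomial i (C.d a) + monomial (i - 1) (C.sg a * (i : A) * y) := by
  rw [pd_apply, cw_monomial, mapAlgHom_monomial, derivative_monomial, monomial_mul_C]

theorem pd_X : pd C y X = Polynomial.C y := by
  rw [← monomial_one_one_eq_X, pd_monomial, C.d_one, map_zero, zero_add, map_one C.sg, one_mul,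
    Nat.cast_one, one_mul, Nat.sub_self, monomial_zero_left]

/-- the inclusion `C → C [b]` -/
noncomputable def polInl : Cdga.Hom C (pol C hm h2 hy hdy) where
  f := CAlgHom
  deg h := C_mem C h
  sg a := by
    change Polynomial.C (C.sg a) = mapAlgHom C.sg (Polynomial.C a)
    rw [coe_mapAlgHom, map_C]
    rfl
  d a := (pd_C C a).symm

theorem polInl_apply (a : A) : (polInl C hm h2 hy hdy).f a = Polynomial.C a := rfl

theorem X_mem : (X : A[X]) ∈ (pol C hm h2 hy hdy).deg m := by
  rw [← monomial_one_one_eq_X]
  refine monomial_mem C ?_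
  exact C.degS_of (by ring) C.one_mem

end pol

section map

variable {S : Cdga k A} {C : Cdga k A'} (φ : Cdga.Hom S C) {m : ℕ} (hm : Even m)
  (h2 : (2 : k) ≠ 0) {y : A} (hy : y ∈ S.deg (m + 1)) (hdy : S.d y = 0) {y' : A'}
  (hy' : y' ∈ C.deg (m + 1)) (hdy' : C.d y' = 0) (h : φ.f y = y')

theorem degS_map {l n : ℕ} {a : A} (ha : a ∈ S.degS l n) : φ.f a ∈ C.degS l n := by
  rcases S.mem_degS ha with h | ⟨j, h, h1⟩
  · rw [h, map_zero]
    exact Submodule.zero_mem _
  · exact C.degS_of h (φ.deg h1)

include h in
theorem map_pd (p : A[X]) : mapAlgHom φ.f (pd S y p) = pd C y' (mapAlgHom φ.f p) := by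
  ext n
  rw [coeff_mapAlgHom_apply, pd_coeff, pd_coeff, coeff_mapAlgHom_apply, coeff_mapAlgHom_apply,
    map_add, map_mul, map_mul, map_add, map_natCast, map_one, φ.d, φ.sg, h]

/-- **functoriality** -/
noncomputable def polMap : Cdga.Hom (pol S hm h2 hy hdy) (pol C hm h2 hy' hdy') where
  f := mapAlgHom φ.f
  deg := by
    intro p a ha i
    rw [coeff_mapAlgHom_apply]
    exact degS_map φ (ha i)
  sg a := by
    ext n
    change (mapAlgHom φ.f (mapAlgHom S.sg a)).coeff n = (mapAlgHom C.sg (mapAlgHom φ.f a)).coeff n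
    simp only [coeff_mapAlgHom_apply, φ.sg]
  d a := map_pd φ h a

theorem polMap_apply (p : A[X]) :
    (polMap φ hm h2 hy hdy hy' hdy' h).f p = mapAlgHom φ.f p := rfl

/-- the relative cohomology in the shifted degrees -/
theorem relLt_shift {n : ℕ} (hφ : RelLt φ n) {l i : ℕ} (hi : i < n) {a : A'} (ha : a ∈ C.degS l i)
    {s : A} (hs : s ∈ S.degS l (i + 1)) (h1 : C.d a = φ.f s) (h2 : S.d s = 0) :
    ∃ t ∈ S.degS l i, S.d t = s ∧ ∃ b, (i = 0 → b = 0) ∧ (∀ j, i = j + 1 → b ∈ C.degS l j) ∧
      a - φ.f t = C.d b := by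
  rcases Nat.lt_or_ge i l with h3 | h3
  · have h4 : a = 0 := by
      rcases C.mem_degS ha with h4 | ⟨j, h4, -⟩
      · exact h4
      · omega
    have h5 : s = 0 := by
      rcases S.mem_degS hs with h5 | ⟨j, h5, h6⟩
      · exact h5
      · obtain rfl : j = 0 := by omega
        refine hφ.1 _ h6 h2 ?_
        rw [← h1, h4, map_zero]
    exact ⟨0, Submodule.zero_mem _, by rw [h5, map_zero], 0, fun _ => rfl,
      fun j _ => Submodule.zero_mem _, by rw [h4, map_zero, map_zero, sub_zero]⟩
  · obtain ⟨i', rfl⟩ : ∃ i', i = i' + l := ⟨i - l, by omega⟩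
    have h4 : a ∈ C.deg i' := by rwa [C.degS_add] at ha
    have h5 : s ∈ S.deg (i' + 1) := by
      rwa [show i' + l + 1 = (i' + 1) + l by ring, S.degS_add] at hs
    obtain ⟨t, ht, h6, h7⟩ := hφ.2 i' (by omega) a h4 s h5 h1 h2
    rcases i' with _ | i'
    · refine ⟨t, by rwa [S.degS_add], h6, 0, fun _ => rfl, fun j _ => Submodule.zero_mem _, ?_⟩
      rw [map_zero]
      exact h7
    · obtain ⟨b, hb, h8⟩ := C.mem_B_succ.1 h7
      refine ⟨t, by rwa [S.degS_add], h6, b, fun h9 => by omega, fun j hj => ?_, h8.symm⟩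
      obtain rfl : j = i' + l := by omega
      rwa [C.degS_add]

include h in
theorem relLt_pol_aux {n : ℕ} (hφ : RelLt φ n) (N : ℕ) : ∀ i < n,
    ∀ a ∈ (pol C hm h2 hy' hdy').deg i, ∀ s ∈ (pol S hm h2 hy hdy).deg (i + 1),
    (∀ j, N ≤ j → a.coeff j = 0) → (∀ j, N ≤ j → s.coeff j = 0) →
    pd C y' a = mapAlgHom φ.f s → pd S y s = 0 →
    ∃ t ∈ (pol S hm h2 hy hdy).deg i, pd S y t = s ∧
      a - mapAlgHom φ.f t ∈ (pol C hm h2 hy' hdy').B i := by
  induction N with
  | zero =>
    intro i hi a ha s hs h3 h4 h5 h6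
    have ea : a = 0 := by
      ext j
      rw [h3 j (Nat.zero_le _), coeff_zero]
    have es : s = 0 := by
      ext j
      rw [h4 j (Nat.zero_le _), coeff_zero]
    refine ⟨0, Submodule.zero_mem _, by rw [es, map_zero], ?_⟩
    rw [ea, map_zero, sub_zero]
    exact Submodule.zero_mem _
  | succ N ih =>
    intro i hi a ha s hs h3 h4 h5 h6
    have h7 : C.d (a.coeff N) = φ.f (s.coeff N) := by
      have h8 := congrArg (fun p => p.coeff N) h5
      simp only [pd_coeff, coeff_mapAlgHom_apply] at h8
      rwa [h3 (N + 1) le_rfl, map_zero, zero_mul, zero_mul, add_zero] at h8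
    have h8 : S.d (s.coeff N) = 0 := by
      have h9 := congrArg (fun p => p.coeff N) h6
      simp only [pd_coeff, coeff_zero] at h9
      rwa [h4 (N + 1) le_rfl, map_zero, zero_mul, zero_mul, add_zero] at h9
    obtain ⟨t, ht, h9, b, hb0, hb, h10⟩ := relLt_shift φ hφ hi (ha N) (hs N) h7 h8
    -- the exact part
    obtain ⟨c, hc, hcB⟩ : ∃ c : A'[X], c = monomial N b ∧
        pd C y' c ∈ (pol C hm h2 hy' hdy').B i := by
      refine ⟨_, rfl, ?_⟩
      rcases i with _ | i
      · rw [hb0 rfl, map_zero, map_zero]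
        exact Submodule.zero_mem _
      · exact ⟨_, monomial_mem C (hb i rfl), rfl⟩
    have hct : ∀ j, N ≤ j → (pd C y' c).coeff j = if j = N then C.d b else 0 := by
      intro j hj
      rw [pd_coeff, hc, coeff_monomial, coeff_monomial, if_neg (by omega : ¬ N = j + 1), map_zero,
        zero_mul, zero_mul, add_zero]
      by_cases h11 : j = N
      · rw [if_pos h11.symm, if_pos h11]
      · rw [if_neg (fun h => h11 h.symm), if_neg h11, map_zero]
    have htm : monomial N t ∈ (pol S hm h2 hy hdy).deg i := monomial_mem S ht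
    have hst : ∀ j, N ≤ j → (pd S y (monomial N t)).coeff j = if j = N then S.d t else 0 := by
      intro j hj
      rw [pd_coeff, coeff_monomial, coeff_monomial, if_neg (by omega : ¬ N = j + 1), map_zero,
        zero_mul, zero_mul, add_zero]
      by_cases h11 : j = N
      · rw [if_pos h11.symm, if_pos h11]
      · rw [if_neg (fun h => h11 h.symm), if_neg h11, map_zero]
    obtain ⟨t', ht', h12, h13⟩ := ih i hi (a - mapAlgHom φ.f (monomial N t) - pd C y' c)
      (Submodule.sub_mem _ (Submodule.sub_mem _ ha
        ((polMap φ hm h2 hy hdy hy' hdy' h).deg htm)) (Cdga.B_le_Z _ _ hcB).1)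
      (s - pd S y (monomial N t)) (Submodule.sub_mem _ hs ((pol S hm h2 hy hdy).d_mem htm))
      (by
        intro j hj
        rw [coeff_sub, coeff_sub, coeff_mapAlgHom_apply, hct j hj, coeff_monomial]
        by_cases h11 : j = N
        · rw [if_pos h11.symm, if_pos h11, h11, h10, sub_self]
        · rw [if_neg (fun h => h11 h.symm), if_neg h11, map_zero, sub_zero, sub_zero]
          exact h3 j (by omega))
      (by
        intro j hj
        rw [coeff_sub, hst j hj]
        by_cases h11 : j = N
        · rw [if_pos h11, h11, h9, sub_self]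
        · rw [if_neg h11, sub_zero]
          exact h4 j (by omega))
      (by
        have h14 : pd C y' (pd C y' c) = 0 := (pol C hm h2 hy' hdy').d_d c
        rw [map_sub, map_sub, h5, h14, sub_zero, ← map_pd φ h, map_sub])
      (by
        have h14 : pd S y (pd S y (monomial N t)) = 0 := (pol S hm h2 hy hdy).d_d _
        rw [map_sub, h6, h14, sub_zero])
    refine ⟨t' + monomial N t, Submodule.add_mem _ ht' htm, by rw [map_add, h12, sub_add_cancel],
      ?_⟩
    have h15 : a - mapAlgHom φ.f (t' + monomial N t) =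
        (a - mapAlgHom φ.f (monomial N t) - pd C y' c - mapAlgHom φ.f t') + pd C y' c := by
      rw [map_add]
      abel
    rw [h15]
    exact Submodule.add_mem _ h13 hcB

/-- **the one-generator lemma**, even generator -/
theorem relLt_pol {n : ℕ} (hφ : RelLt φ n) : RelLt (polMap φ hm h2 hy hdy hy' hdy' h) n := by
  refine ⟨fun s hs h0 h1 => ?_, fun i hi a ha s hs had hsd => ?_⟩
  · -- descending induction on the coefficients
    have key : ∀ N : ℕ, ∀ j, s.natDegree + 1 ≤ j + N → s.coeff j = 0 := by
      intro N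
      induction N with
      | zero =>
        intro j hj
        exact coeff_eq_zero_of_natDegree_lt (by omega)
      | succ N ih =>
        intro j hj
        have h3 : φ.f (s.coeff j) = 0 := by
          have h4 := congrArg (fun p => p.coeff j) h1
          simpa only [polMap_apply, coeff_mapAlgHom_apply, coeff_zero] using h4
        have h5 : S.d (s.coeff j) = 0 := by
          have h4 := congrArg (fun p => p.coeff j) h0
          simp only [pol_d, pd_coeff, coeff_zero] at h4
          rwa [ih (j + 1) (by omega), map_zero, zero_mul, zero_mul, add_zero] at h4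
        rcases S.mem_degS (hs j) with h6 | ⟨j', h6, h7⟩
        · exact h6
        · obtain rfl : j' = 0 := by omega
          exact hφ.1 _ h7 h5 h3
    ext j
    rw [coeff_zero]
    exact key (s.natDegree + 1) j (by omega)
  · exact relLt_pol_aux φ hm h2 hy hdy hy' hdy' h hφ
      (max a.natDegree s.natDegree + 1) i hi a ha s hs
      (fun j hj => coeff_eq_zero_of_natDegree_lt (by omega))
      (fun j hj => coeff_eq_zero_of_natDegree_lt (by omega)) had hsd

theorem qiso_pol (hφ : QIso φ) : QIso (polMap φ hm h2 hy hdy hy' hdy' h) :=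
  QIso.of_relLt fun n => relLt_pol φ hm h2 hy hdy hy' hdy' h (hφ.relLt n)

include h in
theorem new_pol_aux {n : ℕ} (hφ : RelLt φ n) (a : A') (s : A) (N : ℕ) :
    ∀ t ∈ (pol S hm h2 hy hdy).deg n, pd S y t = Polynomial.C s →
    ∀ c : A'[X], (n = 0 → c = 0) → (∀ n', n = n' + 1 → c ∈ (pol C hm h2 hy' hdy').deg n') →
    pd C y' c = Polynomial.C a - mapAlgHom φ.f t →
    (∀ j, N < j → t.coeff j = 0) → (∀ j, N < j → c.coeff j = 0) →
    ∃ t₀ ∈ S.deg n, S.d t₀ = s ∧ a - φ.f t₀ ∈ C.B n := by
  induction N with
  | zero =>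
    intro t ht h3 c hc0 hc h4 h5 h6
    have h7 := ht 0
    rw [Nat.zero_mul, degS_zero] at h7
    refine ⟨t.coeff 0, h7, ?_, ?_⟩
    · have h8 := congrArg (fun p => p.coeff 0) h3
      simp only [pd_coeff] at h8
      rwa [h5 (0 + 1) (by omega), map_zero, zero_mul, zero_mul, add_zero, coeff_C_zero] at h8
    · have h8 := congrArg (fun p => p.coeff 0) h4
      simp only [pd_coeff, coeff_sub, coeff_mapAlgHom_apply] at h8
      rw [h6 (0 + 1) (by omega), map_zero, zero_mul, zero_mul, add_zero, coeff_C_zero] at h8
      rw [← h8]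
      rcases n with _ | n
      · rw [hc0 rfl, coeff_zero, map_zero]
        exact Submodule.zero_mem _
      · have h9 := hc n rfl 0
        rw [Nat.zero_mul, degS_zero] at h9
        exact ⟨_, h9, rfl⟩
  | succ N ih =>
    intro t ht h3 c hc0 hc h4 h5 h6
    rcases n with _ | n
    · -- degree `0`: `c = 0`
      have h7 : t.coeff (N + 1) = 0 := by
        have h8 : S.d (t.coeff (N + 1)) = 0 := by
          have h9 := congrArg (fun p => p.coeff (N + 1)) h3
          simp only [pd_coeff] at h9
          rwa [h5 (N + 1 + 1) (by omega), map_zero, zero_mul, zero_mul, add_zero,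
            coeff_C_succ] at h9
        have h10 : φ.f (t.coeff (N + 1)) = 0 := by
          have h9 := congrArg (fun p => p.coeff (N + 1)) h4
          simp only [hc0 rfl, map_zero, coeff_zero, coeff_sub, coeff_mapAlgHom_apply,
            coeff_C_succ, zero_sub] at h9
          exact neg_eq_zero.1 h9.symm
        rcases S.mem_degS (ht (N + 1)) with h11 | ⟨j, h11, h12⟩
        · exact h11
        · obtain rfl : j = 0 := by omega
          exact hφ.1 _ h12 h8 h10
      refine ih t ht h3 c hc0 hc h4 (fun j hj => ?_) fun j hj => by rw [hc0 rfl, coeff_zero]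
      rcases Nat.lt_or_ge (N + 1) j with h8 | h8
      · exact h5 j h8
      · obtain rfl : j = N + 1 := by omega
        exact h7
    · have hcn := hc n rfl
      have h7 : S.d (-t.coeff (N + 1)) = 0 := by
        have h9 := congrArg (fun p => p.coeff (N + 1)) h3
        simp only [pd_coeff] at h9
        rw [h5 (N + 1 + 1) (by omega), map_zero, zero_mul, zero_mul, add_zero, coeff_C_succ] at h9
        rw [map_neg, h9, neg_zero]
      have h8 : C.d (c.coeff (N + 1)) = φ.f (-t.coeff (N + 1)) := by
        have h9 := congrArg (fun p => p.coeff (N + 1)) h4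
        simp only [pd_coeff, coeff_sub, coeff_mapAlgHom_apply, coeff_C_succ, zero_sub] at h9
        rw [h6 (N + 1 + 1) (by omega), map_zero, zero_mul, zero_mul, add_zero] at h9
        rw [h9, map_neg]
      obtain ⟨u, hu, h9, g, hg0, hg, h10⟩ := relLt_shift φ hφ (Nat.lt_succ_self n) (hcn (N + 1))
        (Submodule.neg_mem _ (ht (N + 1))) h8 h7
      have hum : monomial (N + 1) u ∈ (pol S hm h2 hy hdy).deg n := monomial_mem S hu
      have hgm : pd C y' (monomial (N + 1) g) ∈ (pol C hm h2 hy' hdy').deg n := by
        rcases n with _ | n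
        · rw [hg0 rfl, map_zero, map_zero]
          exact Submodule.zero_mem _
        · exact (pol C hm h2 hy' hdy').d_mem (monomial_mem C (hg n rfl))
      have hcf : ∀ j, N < j → (pd C y' (monomial (N + 1) g)).coeff j =
          if j = N + 1 then C.d g else 0 := by
        intro j hj
        rw [pd_coeff, coeff_monomial, coeff_monomial, if_neg (by omega : ¬ N + 1 = j + 1),
          map_zero, zero_mul, zero_mul, add_zero]
        by_cases h11 : j = N + 1
        · rw [if_pos h11.symm, if_pos h11]
        · rw [if_neg (fun h => h11 h.symm), if_neg h11, map_zero]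
      have hsf : ∀ j, N < j → (pd S y (monomial (N + 1) u)).coeff j =
          if j = N + 1 then S.d u else 0 := by
        intro j hj
        rw [pd_coeff, coeff_monomial, coeff_monomial, if_neg (by omega : ¬ N + 1 = j + 1),
          map_zero, zero_mul, zero_mul, add_zero]
        by_cases h11 : j = N + 1
        · rw [if_pos h11.symm, if_pos h11]
        · rw [if_neg (fun h => h11 h.symm), if_neg h11, map_zero]
      refine ih (t + pd S y (monomial (N + 1) u))
        (Submodule.add_mem _ ht ((pol S hm h2 hy hdy).d_mem hum)) ?_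
        (c - mapAlgHom φ.f (monomial (N + 1) u) - pd C y' (monomial (N + 1) g))
        (fun h => by omega) (fun n' hn' => ?_) ?_ (fun j hj => ?_) fun j hj => ?_
      · have h14 : pd S y (pd S y (monomial (N + 1) u)) = 0 := (pol S hm h2 hy hdy).d_d _
        rw [map_add, h14, add_zero, h3]
      · obtain rfl : n = n' := by omega
        exact Submodule.sub_mem _ (Submodule.sub_mem _ hcn
          ((polMap φ hm h2 hy hdy hy' hdy' h).deg hum)) hgm
      · have h14 : pd C y' (pd C y' (monomial (N + 1) g)) = 0 := (pol C hm h2 hy' hdy').d_d _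
        rw [map_sub, map_sub, h14, sub_zero, h4, ← map_pd φ h, map_add, sub_sub]
      · rw [coeff_add, hsf j hj]
        by_cases h11 : j = N + 1
        · rw [if_pos h11, h11, h9, add_neg_cancel]
        · rw [if_neg h11, add_zero]
          exact h5 j (by omega)
      · rw [coeff_sub, coeff_sub, coeff_mapAlgHom_apply, hcf j hj, coeff_monomial]
        by_cases h11 : j = N + 1
        · rw [if_pos h11.symm, if_pos h11, h11, h10, sub_self]
        · rw [if_neg (fun h => h11 h.symm), if_neg h11, map_zero, sub_zero, sub_zero]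
          exact h6 j (by omega)

/-- **a nontrivial relative class remains nontrivial** -/
theorem new_pol {n : ℕ} (hφ : RelLt φ n) {a : A'} {s : A} (hN : New φ n a s) :
    New (polMap φ hm h2 hy hdy hy' hdy' h) n (Polynomial.C a) (Polynomial.C s) := by
  rintro ⟨t, ht, h3, h4⟩
  refine hN ?_
  obtain ⟨c, hc0, hc, h5⟩ : ∃ c : A'[X], (n = 0 → c = 0) ∧
      (∀ n', n = n' + 1 → c ∈ (pol C hm h2 hy' hdy').deg n') ∧
      pd C y' c = Polynomial.C a - mapAlgHom φ.f t := by
    rcases n with _ | n
    · refine ⟨0, fun _ => rfl, fun n' hn => by omega, ?_⟩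
      rw [map_zero]
      exact (show Polynomial.C a - mapAlgHom φ.f t = 0 from h4).symm
    · obtain ⟨c, hc, h5⟩ := h4
      refine ⟨c, fun h => by omega, fun n' hn => ?_, h5⟩
      obtain rfl : n = n' := by omega
      exact hc
  exact new_pol_aux φ hm h2 hy hdy hy' hdy' h hφ a s (max t.natDegree c.natDegree) t ht h3 c
    hc0 hc h5 (fun j hj => coeff_eq_zero_of_natDegree_lt (by omega))
    fun j hj => coeff_eq_zero_of_natDegree_lt (by omega)

end map

/-- **`Λ(y) [b]` is acyclic** -/
theorem acy_pol [CharZero k] (C : Cdga k A) {m : ℕ} (hm0 : 0 < m) (hm : Even m)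
    (h2 : (2 : k) ≠ 0) {y : A} (hy : y ∈ C.deg (m + 1)) (hdy : C.d y = 0) (hy0 : y ≠ 0)
    (h0 : ∀ a ∈ C.deg 0, ∃ c : k, a = c • 1) (h1 : ∀ a ∈ C.deg (m + 1), ∃ c : k, a = c • y)
    (hz : ∀ j, j ≠ 0 → j ≠ m + 1 → ∀ a ∈ C.deg j, a = 0) (n : ℕ) :
    Acy (pol C hm h2 hy hdy) n := by
  have hm2 : 2 ≤ m := by
    obtain ⟨r, rfl⟩ := hm
    omega
  intro j hj hjn z hzj
  have hzd : pd C y z = 0 := hzj.2
  have hzm : ∀ i, z.coeff i ∈ C.degS (i * m) j := hzj.1
  obtain ⟨j', rfl⟩ : ∃ j', j = j' + 1 := ⟨j - 1, by omega⟩
  by_cases hex : ∃ i, j' + 1 = (i + 1) * m + 1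
  · obtain ⟨i, hi⟩ := hex
    have e0 : ∀ i', i' ≠ i → z.coeff i' = 0 := by
      intro i' hi'
      rcases C.mem_degS (hzm i') with h | ⟨l, h, h3⟩
      · exact h
      · by_cases h4 : l = 0
        · exfalso
          rw [h4, hi, zero_add] at h
          have h5 : m ∣ (i + 1) * m + 1 := ⟨i', by rw [h, mul_comm]⟩
          have h6 : m ∣ 1 := (Nat.dvd_add_right (Dvd.intro_left (i + 1) rfl)).1 h5
          have := Nat.le_of_dvd one_pos h6
          omega
        · by_cases h5 : l = m + 1
          · exfalso
            rw [h5, hi] at h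
            have h6 : (i + 1) * m = (i' + 1) * m := by
              have : (i' + 1) * m = m + i' * m := by ring
              omega
            have := Nat.eq_of_mul_eq_mul_right hm0 h6
            omega
          · exact hz l h4 h5 _ h3
    have e1 : z.coeff i ∈ C.deg (m + 1) := by
      have h3 := hzm i
      rwa [hi, show (i + 1) * m + 1 = (m + 1) + i * m by ring, C.degS_add] at h3
    obtain ⟨c, hc⟩ := h1 _ e1
    have e2 : z = monomial i (c • y) := by
      ext i'
      rw [coeff_monomial]
      split_ifs with h3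
      · rw [← h3, hc]
      · exact e0 i' fun h => h3 h.symm
    refine (pol C hm h2 hy hdy).mem_B_succ.2 ⟨monomial (i + 1) ((c * ((i + 1 : ℕ) : k)⁻¹) • 1),
      ?_, ?_⟩
    · refine monomial_mem C ?_
      refine Submodule.smul_mem _ _ (C.degS_of ?_ C.one_mem)
      omega
    · rw [pol_d, pd_monomial, map_smul, C.d_one, smul_zero, map_zero, zero_add,
        Nat.add_sub_cancel, e2]
      congr 1
      rw [map_smul, map_one C.sg, smul_mul_assoc, one_mul, smul_mul_assoc,
        ← nsmul_eq_mul, ← Nat.cast_smul_eq_nsmul k, smul_smul, mul_assoc,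
        inv_mul_cancel₀ (Nat.cast_ne_zero.2 (Nat.succ_ne_zero i)), mul_one]
  · have e0 : z = 0 := by
      ext i
      rw [coeff_zero]
      rcases C.mem_degS (hzm i) with h | ⟨l, h, h3⟩
      · exact h
      · by_cases h4 : l = m + 1
        · exfalso
          rw [h4] at h
          exact hex ⟨i, by rw [h]; ring⟩
        · by_cases h5 : l = 0
          · subst h5
            obtain ⟨i', rfl⟩ : ∃ i', i = i' + 1 := by
              refine ⟨i - 1, ?_⟩
              rcases i with _ | i
              · omega
              · omega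
            obtain ⟨c, hc⟩ := h0 _ h3
            have h6 := congrArg (fun p => p.coeff i') hzd
            simp only [pd_coeff, coeff_zero] at h6
            have h7 : z.coeff i' = 0 := by
              rcases C.mem_degS (hzm i') with h8 | ⟨l, h8, h9⟩
              · exact h8
              · refine hz l ?_ ?_ _ h9
                · intro h10
                  rw [h10, h] at h8
                  have : (i' + 1) * m = i' * m + m := by ring
                  omega
                · intro h10
                  rw [h10, h] at h8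
                  have : (i' + 1) * m = i' * m + m := by ring
                  omega
            rw [h7, map_zero, zero_add, hc, map_smul, map_one, smul_mul_assoc, one_mul,
              smul_mul_assoc] at h6
            have h8 : ((i' : A) + 1) * y = ((i' + 1 : ℕ) : k) • y := by
              rw [Nat.cast_smul_eq_nsmul, nsmul_eq_mul, Nat.cast_add, Nat.cast_one]
            rw [h8, smul_smul] at h6
            rcases smul_eq_zero.1 h6 with h9 | h9
            · rcases mul_eq_zero.1 h9 with h10 | h10
              · rw [hc, h10, zero_smul]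
              · exact absurd h10 (Nat.cast_ne_zero.2 (Nat.succ_ne_zero i'))
            · exact absurd h9 hy0
          · exact hz l h5 h4 _ h3
    rw [e0]
    exact Submodule.zero_mem _

end Vale.Agent.P216.V651
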