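import Vale.Agent.P216.V609.NPol
import Vale.Agent.P216.H923G.Abs

/-!
# P216-V, (F): `Fil`, `Ev`, `PushD`, `EvT` pass to `C [b]`, `D [b]`

Everything is done coefficientwise; `y` lies in the base, the restriction to the fibre maps `b` and
`y` to `0`.
-/

open Polynomial Finset

namespace Vale.Agent.P216.V651

open V609 H923G

variable {k : Type*} [Field k]
variable {B B' W W' Ω Ω' : Type*} [Ring B] [Algebra k B] [Ring B'] [Algebra k B'] [Ring W]
  [Algebra k W] [Ring W'] [Algebra k W'] [Ring Ω] [Algebra k Ω] [Ring Ω'] [Algebra k Ω']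

/-- a linear map applied to the coefficients -/
noncomputable def cwm (D : W →ₗ[k] B') : W[X] →ₗ[k] B'[X] :=
  Polynomial.lsum fun i => ((monomial i : B' →ₗ[B'] B'[X]).restrictScalars k) ∘ₗ D

@[simp] theorem cwm_monomial (D : W →ₗ[k] B') (i : ℕ) (a : W) :
    cwm D (monomial i a) = monomial i (D a) := by
  rw [cwm, Polynomial.lsum_apply, Polynomial.sum_monomial_index]
  · rfl
  · simp

@[simp] theorem cwm_coeff (D : W →ₗ[k] B') (p : W[X]) (n : ℕ) :
    (cwm D p).coeff n = D (p.coeff n) := by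
  induction p using Polynomial.induction_on' with
  | add p q hp hq => rw [map_add, coeff_add, hp, hq, coeff_add, map_add]
  | monomial i a =>
    rw [cwm_monomial, coeff_monomial, coeff_monomial]
    split_ifs
    · rfl
    · rw [map_zero]

/-- the filtration of `D [b]` -/
def LX (L : ℕ → Submodule k W) (n : ℕ) : Submodule k W[X] where
  carrier := {p | ∀ i, p.coeff i ∈ L n}
  add_mem' := fun ha hb i => by
    rw [coeff_add]
    exact Submodule.add_mem _ (ha i) (hb i)
  zero_mem' := fun i => by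
    rw [coeff_zero]
    exact Submodule.zero_mem _
  smul_mem' := fun c _ h i => by
    rw [coeff_smul]
    exact Submodule.smul_mem _ c (h i)

theorem mem_LX {L : ℕ → Submodule k W} {n : ℕ} {p : W[X]} :
    p ∈ LX L n ↔ ∀ i, p.coeff i ∈ L n := Iff.rfl

variable {C : Cdga k B} {C' : Cdga k B'} {D : NDga k W} {D' : NDga k W'} {O : NDga k Ω}
  {O' : NDga k Ω'} {φ : CHom C D} {φ' : CHom C' D'} {ρ : Cdga.Hom C C'} {r : NDga.Hom D D'}
  {rO : NDga.Hom D O} {s : NDga.Hom O O'} {L : ℕ → Submodule k W} {L' : ℕ → Submodule k W'}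
  {q : ℕ}

/-- the term of the differential with `y` stays in the filtration -/
theorem fil_y (hF : Fil φ L) (y : B) {n : ℕ} {w : W} (hw : w ∈ L n) (i : ℕ) :
    D.sg w * ((i : W) + 1) * φ.f y ∈ L n := by
  have h1 : D.sg w * ((i : W) + 1) * φ.f y = D.sg w * φ.f (((i : B) + 1) * y) := by
    rw [map_mul, map_add, map_natCast, map_one, mul_assoc]
  rw [h1]
  exact hF.mul (hF.sg hw) _

section

variable {m : ℕ} (hm : Even m) (h2 : (2 : k) ≠ 0) {y : B} (hy : y ∈ C.deg (m + 1))
  (hdy : C.d y = 0) {y' : B'} (hy' : y' ∈ C'.deg (m + 1)) (hdy' : C'.d y' = 0)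

/-- **`Fil` passes to `[b]`** -/
theorem fil_pol (hF : Fil φ L) : Fil (φ.pol hm h2 hy hdy) (LX L) where
  zero := by
    rw [eq_bot_iff]
    intro p hp
    refine (Submodule.mem_bot k).2 ?_
    ext i
    have := hp i
    rw [hF.zero] at this
    rw [coeff_zero]
    exact (Submodule.mem_bot k).1 this
  mono := fun a b hab p hp i => hF.mono hab (hp i)
  deg_le := fun n p hp i => by
    rcases D.mem_degS (hp i) with h | ⟨j, h, h1⟩
    · rw [h]
      exact Submodule.zero_mem _
    · exact hF.mono (by omega) (hF.deg_le j h1)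
  sg := fun {n w} hw i => by
    rw [NDga.pol_sg_coeff]
    exact hF.sg (hw i)
  mul := fun {n w} hw b i => by
    rw [coeff_mul]
    refine Submodule.sum_mem _ fun x _ => ?_
    rw [CHom.pol_coeff]
    exact hF.mul (hw _) _

/-- the components of `d` lie in the filtration -/
theorem d_coeff_mem (hF : Fil φ L) {n : ℕ} {w : W[X]} (hw : w ∈ LX L n)
    (hdw : (D.pol hm h2 (φ.deg' hy) (φ.d_closed hdy) (φ.central_odd hy hm.add_one)).d w ∈ LX L n)
    (i : ℕ) : D.d (w.coeff i) ∈ L n := by
  have h1 := hdw i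
  rw [NDga.pol_d_coeff] at h1
  have h3 := Submodule.sub_mem _ h1 (fil_y hF y (hw (i + 1)) i)
  rwa [add_sub_cancel_right] at h3

/-- the value of an evaluation on the term with `y` -/
theorem ev_y {Z : Type*} (E : Ev φ ρ L rO q Z) (z : Z) (w : W) (i : ℕ) :
    E.c z (D.sg w * ((i : W) + 1) * φ.f y) =
      (-1 : k) ^ q • (C'.sg (E.c z w) * ((i : B') + 1) * ρ.f y) := by
  have h1 : D.sg w * ((i : W) + 1) * φ.f y = D.sg w * φ.f (((i : B) + 1) * y) := by
    rw [map_mul, map_add, map_natCast, map_one, mul_assoc]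
  rw [h1, E.mul, E.sg, map_mul, map_add, map_natCast, map_one, smul_mul_assoc, ← mul_assoc]

variable (hρ : ρ.f y = y') (h0 : rO.f (φ.f y) = 0)

/-- **`Ev` passes to `[b]`** -/
noncomputable def evPol (hF : Fil φ L) (hm0 : 0 < m) {Z : Type*} (E : Ev φ ρ L rO q Z) :
    Ev (φ.pol hm h2 hy hdy) (polMap ρ hm h2 hy hdy hy' hdy' hρ) (LX L)
      (rO.polZero hm h2 (φ.deg' hy) (φ.d_closed hdy) (φ.central_odd hy hm.add_one) h0) q Z where
  c z := cwm (E.c z)
  deg := fun z n j w hn hw i => by
    rw [cwm_coeff]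
    rcases D.mem_degS (hw i) with h | ⟨l, h, h1⟩
    · rw [h, map_zero]
      exact Submodule.zero_mem _
    · rcases Nat.lt_or_ge l q with h3 | h3
      · rw [E.low z (hF.mono h3 (hF.deg_le l h1))]
        exact Submodule.zero_mem _
      · obtain ⟨l', rfl⟩ : ∃ l', l = l' + q := ⟨l - q, by omega⟩
        exact C'.degS_of (by omega) (E.deg z rfl h1)
  sg := fun z w => by
    ext i
    rw [cwm_coeff, NDga.pol_sg_coeff, E.sg, coeff_smul]
    congr 1
    rw [pol_sg, coeff_mapAlgHom_apply, cwm_coeff]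
  mul := fun z w b => by
    ext i
    rw [cwm_coeff, coeff_mul, map_sum, coeff_mul]
    refine Finset.sum_congr rfl fun x _ => ?_
    rw [CHom.pol_coeff, E.mul, cwm_coeff, polMap_apply, coeff_mapAlgHom_apply]
  low := fun z w hw => by
    ext i
    rw [cwm_coeff, coeff_zero]
    exact E.low z (hw i)
  d := fun z w hw hdw => by
    ext i
    rw [pol_d, pd_coeff, cwm_coeff, cwm_coeff, coeff_smul, cwm_coeff, NDga.pol_d_coeff, map_add,
      ev_y E z, smul_add, smul_smul, ← pow_add, ← two_mul, pow_mul, neg_one_sq, one_pow, one_smul,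
      E.d z (hw i) (d_coeff_mem hm h2 hy hdy hF hw hdw i), hρ]
  f0 := fun z w hw hd hr => by
    have h1 : ∀ i, 0 < i → E.c z (w.coeff i) = 0 := by
      intro i hi
      rcases D.mem_degS (hw i) with h | ⟨l, h, h1⟩
      · rw [h, map_zero]
      · refine E.low z (hF.mono ?_ (hF.deg_le l h1))
        have : 1 * 1 ≤ i * m := Nat.mul_le_mul hi hm0
        omega
    ext i
    rw [cwm_coeff, coeff_zero]
    rcases Nat.eq_zero_or_pos i with rfl | hi
    · have h3 := hw 0
      rw [Nat.zero_mul, NDga.degS_zero] at h3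
      refine E.f0 z h3 ?_ ?_
      · have h4 := congrArg (fun p => p.coeff 0) hd
        simp only [pol_d, pd_coeff, cwm_coeff, coeff_zero] at h4
        rwa [h1 (0 + 1) (Nat.succ_pos 0), map_zero, zero_mul, zero_mul, add_zero] at h4
      · rwa [NDga.Hom.polZero_apply] at hr
    · exact h1 i hi

/-- **`PushD` passes to `[b]`** -/
noncomputable def pushPol (hF : Fil φ L) (hF' : Fil φ' L') (hm0 : 0 < m)
    (hr : r.f (φ.f y) = φ'.f y') {A : Type*} [Fintype A] (P : PushD φ φ' ρ r L L' rO q A) :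
    PushD (φ.pol hm h2 hy hdy) (φ'.pol hm h2 hy' hdy') (polMap ρ hm h2 hy hdy hy' hdy' hρ)
      (φ.polMap hm h2 hy hdy φ' r hy' hdy' hr) (LX L) (LX L')
      (rO.polZero hm h2 (φ.deg' hy) (φ.d_closed hdy) (φ.central_odd hy hm.add_one) h0) q A where
  toEv := evPol hm h2 hy hdy hy' hdy' hρ h0 hF hm0 P.toEv
  V a := Polynomial.C (P.V a)
  V_deg := fun a => D'.C_mem_pol (P.V_deg a)
  V_L := fun a i => by
    rw [coeff_C]
    split_ifs
    · exact P.V_L a
    · exact Submodule.zero_mem _
  dV_L := fun a i => by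
    rw [NDga.pol_d, NDga.pd_C, coeff_C]
    split_ifs
    · exact P.dV_L a
    · exact Submodule.zero_mem _
  g := cwm P.g
  g_deg := fun {n w} hw i => by
    rw [cwm_coeff]
    rcases D.mem_degS (hw i) with h | ⟨j, h, h1⟩
    · rw [h, map_zero]
      exact Submodule.zero_mem _
    · rcases j with _ | j
      · rw [P.g_deg_zero h1]
        exact Submodule.zero_mem _
      · exact D'.degS_of (by omega) (P.g_deg h1)
  g_deg_zero := fun {w} hw => by
    ext i
    rw [cwm_coeff, coeff_zero]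
    rcases D.mem_degS (hw i) with h | ⟨j, h, h1⟩
    · rw [h, map_zero]
    · obtain rfl : j = 0 := by omega
      exact P.g_deg_zero h1
  g_sg := fun w => by
    ext i
    rw [cwm_coeff, NDga.pol_sg_coeff, P.g_sg, coeff_neg, NDga.pol_sg_coeff, cwm_coeff]
  g_mul := fun w b => by
    ext i
    rw [cwm_coeff, coeff_mul, map_sum, coeff_mul]
    refine Finset.sum_congr rfl fun x _ => ?_
    rw [CHom.pol_coeff, P.g_mul, cwm_coeff, CHom.pol_coeff, polMap_apply, coeff_mapAlgHom_apply]
  g_L := fun {w} hw i => by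
    rw [cwm_coeff]
    exact P.g_L (hw i)
  main := fun {w} hw hdw i => by
    have h1 := P.main (hw i) (d_coeff_mem hm h2 hy hdy hF hw hdw i)
    have h3 := fil_y hF' y' (P.g_L (hw (i + 1))) i
    have h4 := Submodule.sub_mem _ h1 h3
    convert h4 using 1
    rw [coeff_sub, coeff_sub, NDga.pol_d_coeff, cwm_coeff, cwm_coeff, CHom.polMap_coeff,
      finsetSum_coeff, ← sub_sub]
    congr 3
    refine Finset.sum_congr rfl fun a _ => ?_
    rw [coeff_C_mul, CHom.pol_coeff]
    congr 2
    exact cwm_coeff _ _ _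

/-- **`EvT` passes to `[b]`** -/
noncomputable def evtPol (hF : Fil φ L) (hm0 : 0 < m) {Z : Type*} (E : EvT φ ρ L rO s q Z) :
    EvT (φ.pol hm h2 hy hdy) (polMap ρ hm h2 hy hdy hy' hdy' hρ) (LX L)
      (rO.polZero hm h2 (φ.deg' hy) (φ.d_closed hdy) (φ.central_odd hy hm.add_one) h0) s q Z where
  toEv := evPol hm h2 hy hdy hy' hdy' hρ h0 hF hm0 E.toEv
  f1 := fun {w} hw hd hz => by
    rw [NDga.Hom.polZero_apply] at hd ⊢
    have h3 := hw 0
    rw [Nat.zero_mul, NDga.degS_zero] at h3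
    refine E.f1 h3 hd fun z => ?_
    have h4 := congrArg (fun p => p.coeff 0) (hz z)
    rw [coeff_zero] at h4
    rw [← h4]
    exact (cwm_coeff _ _ _).symm

end

end Vale.Agent.P216.V651
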