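import Vale.Agent.P216.H892.FibU

/-!
# P216-V, [F-CH]: chain homotopies

`pr f₀ f₁`: the prism, `bd (pr c) + pr (bd c) = mp f₁ c - mp f₀ c`. A finite chain of contiguous
maps, and a uniform homotopy `UH`, give chain homotopies on small lists.
-/

set_option linter.all false

open Set Finsupp

namespace Vale.Agent.P216.V651

open Sl PS D907 H923E H892

variable {k : Type} [Field k] {α β : Type}

/-! ### The prism -/

/-- the prism of a list -/
noncomputable def prL (f₀ f₁ : α → β) : List α → Ch k β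
  | [] => 0
  | x :: l => cons (f₀ x) (single ((x :: l).map f₁) 1 - prL f₀ f₁ l)

/-- the prism -/
noncomputable def pr (f₀ f₁ : α → β) : Ch k α →ₗ[k] Ch k β :=
  Finsupp.linearCombination k (prL f₀ f₁)

@[simp] theorem pr_single (f₀ f₁ : α → β) (l : List α) (r : k) :
    pr f₀ f₁ (single l r) = r • prL f₀ f₁ l := by
  simp [pr, Finsupp.linearCombination_single]

theorem prL_nil (f₀ f₁ : α → β) : prL f₀ f₁ [] = (0 : Ch k β) := rfl

theorem prL_cons (f₀ f₁ : α → β) (x : α) (l : List α) : (prL f₀ f₁ (x :: l) : Ch k β) =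
    cons (f₀ x) (single (f₁ x :: l.map f₁) 1 - prL f₀ f₁ l) := rfl

theorem pr_cons (f₀ f₁ : α → β) (x : α) (c : Ch k α) :
    pr f₀ f₁ (cons x c) = cons (f₀ x) (cons (f₁ x) (mp f₁ c) - pr f₀ f₁ c) := by
  have := lin_ext_apply (f := (pr f₀ f₁).comp (cons x))
    (g := (cons (f₀ x)).comp ((cons (f₁ x)).comp (mp f₁) - pr (k := k) f₀ f₁)) (fun l => by
      simp only [LinearMap.comp_apply, LinearMap.sub_apply, cons_single, pr_single, one_smul,
        mp_single, prL_cons]) c
  simpa using this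

theorem bd_prL (f₀ f₁ : α → β) (l : List α) :
    bd (prL f₀ f₁ l) + pr f₀ f₁ (bdL l) =
      single (l.map f₁) (1 : k) - single (l.map f₀) 1 := by
  induction l with
  | nil => rw [prL_nil, bdL_nil, map_zero, map_zero, List.map_nil, List.map_nil, sub_self,
      add_zero]
  | cons x l ih =>
    have h1 : bdL (f₁ x :: l.map f₁) = single (l.map f₁) (1 : k) - cons (f₁ x) (mp f₁ (bdL l)) := by
      rw [bdL_cons]
      congr 2
      have := bd_mp (k := k) f₁ (single l 1)
      rwa [mp_single, bd_single, bd_single, one_smul, one_smul] at this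
    have h2 : bd (single (f₁ x :: l.map f₁) (1 : k)) =
        single (l.map f₁) (1 : k) - cons (f₁ x) (mp f₁ (bdL l)) := by
      rw [bd_single, one_smul, h1]
    have h3 : single (l.map f₀) (1 : k) = single (l.map f₁) 1 -
        (bd (prL f₀ f₁ l) + pr f₀ f₁ (bdL l)) := by rw [ih]; abel
    have h4 : bd (single (f₁ x :: l.map f₁) (1 : k) - prL f₀ f₁ l) =
        single (l.map f₁) (1 : k) - cons (f₁ x) (mp f₁ (bdL l)) - bd (prL f₀ f₁ l) := by
      rw [map_sub, h2]
    have h5 : pr f₀ f₁ (single l (1 : k) - cons x (bdL l)) = prL f₀ f₁ l -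
        cons (f₀ x) (cons (f₁ x) (mp f₁ (bdL l)) - pr f₀ f₁ (bdL l)) := by
      rw [map_sub, pr_single, one_smul, pr_cons]
    rw [prL_cons, bd_cons, bdL_cons, h4, h5, List.map_cons, List.map_cons,
      ← cons_single (f₀ x) (l.map f₀) 1, h3]
    simp only [map_sub, map_add]
    abel

/-- **the prism identity** -/
theorem bd_pr (f₀ f₁ : α → β) (c : Ch k α) :
    bd (pr f₀ f₁ c) + pr f₀ f₁ (bd c) = mp f₁ c - mp f₀ c := by
  have := lin_ext_apply (f := bd.comp (pr f₀ f₁) + (pr f₀ f₁).comp bd)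
    (g := mp f₁ - mp (k := k) f₀) (fun l => by
      simp only [LinearMap.comp_apply, LinearMap.sub_apply, LinearMap.add_apply, pr_single,
        bd_single, one_smul, mp_single, bd_prL]) c
  simpa using this

theorem cons_mem {P Q : List β → Prop} {x : β} (h : ∀ l, P l → Q (x :: l)) {c : Ch k β}
    (hc : c ∈ Sp k P) : cons x c ∈ Sp k Q := by
  refine map_mem (N := Sp k Q) (cons x) (fun l hl => ?_) hc
  rw [cons_single]
  exact single_mem (h l hl) 1

theorem prL_mem (f₀ f₁ : α → β) (l : List α) : (prL f₀ f₁ l : Ch k β) ∈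
    Sp k (fun l' => l'.length = l.length + 1 ∧ ∀ y ∈ l', ∃ x ∈ l, y = f₀ x ∨ y = f₁ x) := by
  induction l with
  | nil => exact Submodule.zero_mem _
  | cons x l ih =>
    rw [prL_cons]
    refine cons_mem (P := fun l' => l'.length = l.length + 1 ∧
      ∀ y ∈ l', ∃ z ∈ x :: l, y = f₀ z ∨ y = f₁ z) (fun l' hl' => ⟨?_, ?_⟩)
      (Submodule.sub_mem _ (single_mem ⟨?_, ?_⟩ 1) (Sp_mono (fun l' hl' => ⟨hl'.1, ?_⟩) ih))
    · rw [List.length_cons, hl'.1, List.length_cons]
    · intro y hy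
      rcases List.mem_cons.1 hy with rfl | hy
      · exact ⟨x, List.mem_cons_self .., Or.inl rfl⟩
      · exact hl'.2 y hy
    · rw [List.length_cons, List.length_map]
    · intro y hy
      rcases List.mem_cons.1 hy with rfl | hy
      · exact ⟨x, List.mem_cons_self .., Or.inr rfl⟩
      · obtain ⟨z, hz, rfl⟩ := List.mem_map.1 hy
        exact ⟨z, List.mem_cons_of_mem _ hz, Or.inr rfl⟩
    · intro y hy
      obtain ⟨z, hz, h⟩ := hl'.2 y hy
      exact ⟨z, List.mem_cons_of_mem _ hz, h⟩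

/-! ### Chains of contiguous maps -/

variable {E E' : Type} [PseudoMetricSpace E] [PseudoMetricSpace E']

theorem ctg_pr {Y : Set E'} {Zs : Set E} {δ r : ℝ} {f₀ f₁ : E → E'} (h : Ctg Y Zs δ r f₀ f₁)
    {l : List E} (hl : SmL Zs δ l) :
    (prL f₀ f₁ l : Ch k E') ∈ Sp k (fun l' => l'.length = l.length + 1 ∧ SmL Y r l') :=
  Sp_mono (fun _ hl' => ⟨hl'.1, h.small hl hl'.2⟩) (prL_mem f₀ f₁ l)

/-- **a chain of contiguous maps gives a chain homotopy** (the identity holds on all lists) -/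
theorem ctgC_chain {Y : Set E'} {Zs : Set E} {δ r : ℝ} {f₀ f₁ : E → E'}
    (h : CtgC Y Zs δ r f₀ f₁) : ∃ K : Ch k E →ₗ[k] Ch k E', K (single [] 1) = 0 ∧
      (∀ l, SmL Zs δ l → K (single l 1) ∈ Sp k (fun l' => l'.length = l.length + 1 ∧ SmL Y r l')) ∧
      ∀ c, bd (K c) + K (bd c) = mp f₁ c - mp f₀ c := by
  induction h with
  | refl =>
    refine ⟨0, rfl, fun l _ => Submodule.zero_mem _, fun c => ?_⟩
    rw [LinearMap.zero_apply, map_zero, LinearMap.zero_apply, add_zero, sub_self]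
  | @tail g₀ g₁ _ h ih =>
    obtain ⟨K, h0, h1, h2⟩ := ih
    refine ⟨K + pr g₀ g₁, ?_, fun l hl => ?_, fun c => ?_⟩
    · rw [LinearMap.add_apply, h0, pr_single, one_smul, prL_nil, zero_add]
    · rw [LinearMap.add_apply, pr_single, one_smul]
      exact Submodule.add_mem _ (h1 l hl) (ctg_pr h hl)
    · rw [LinearMap.add_apply, LinearMap.add_apply, map_add]
      have h3 := h2 c
      have h4 := bd_pr (k := k) g₀ g₁ c
      calc _ = (bd (K c) + K (bd c)) + (bd (pr g₀ g₁ c) + pr g₀ g₁ (bd c)) := by abel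
        _ = _ := by
          rw [h3, h4]
          abel

/-- **uniform homotopies give chain homotopies** -/
theorem UH.chain {I : Type} {Z : I → Set E} {Y : I → Set E'} {f g : I → E → E'}
    (H : UH Z Y f g) : ∀ r > 0, ∃ δ > 0, ∀ i, ∃ K : Ch k E →ₗ[k] Ch k E', K (single [] 1) = 0 ∧
      (∀ l, SmL (Z i) δ l →
        K (single l 1) ∈ Sp k (fun l' => l'.length = l.length + 1 ∧ SmL (Y i) r l')) ∧
      ∀ c, bd (K c) + K (bd c) = mp (g i) c - mp (f i) c := by
  intro r hr
  obtain ⟨δ, hδ, h⟩ := H892.UH.ctgC H r hr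
  exact ⟨δ, hδ, fun i => ctgC_chain (h i)⟩

/-- the form for one list -/
theorem UH.chain' {I : Type} {Z : I → Set E} {Y : I → Set E'} {f g : I → E → E'}
    (H : UH Z Y f g) : ∀ r > 0, ∃ δ > 0, ∀ i, ∃ K : Ch k E →ₗ[k] Ch k E', K (single [] 1) = 0 ∧
      (∀ l, SmL (Z i) δ l →
        K (single l 1) ∈ Sp k (fun l' => l'.length = l.length + 1 ∧ SmL (Y i) r l')) ∧
      ∀ l, SmL (Z i) δ l → bd (K (single l 1)) + K (bdL l) =
        single (l.map (g i)) 1 - single (l.map (f i)) 1 := by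
  intro r hr
  obtain ⟨δ, hδ, h⟩ := UH.chain (k := k) H r hr
  refine ⟨δ, hδ, fun i => ?_⟩
  obtain ⟨K, h1, h2, h3⟩ := h i
  refine ⟨K, h1, h2, fun l _ => ?_⟩
  have h4 := h3 (single l 1)
  rwa [bd_single, one_smul, mp_single, mp_single] at h4

end Vale.Agent.P216.V651
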