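import Vale.Agent.P216.H923G.KD

/-!
# P216-V, (F): monotonicity of the kernel data
-/

set_option linter.all false

open Finsupp

namespace Vale.Agent.P216.V651

open Vale.Agent.P216.Sl Vale.Agent.P216.PS H923G

variable {M E : Type} [PseudoMetricSpace M] [PseudoMetricSpace E] {π : E → M} {X Y X' Y' : Set E}
  {ε δ ε' δ' : ℝ} {q : ℕ}

theorem Nr_mono (hX : X ⊆ X') (hε : ε ≤ ε') {v : M} {l : List E} (h : Nr π X ε v l) :
    Nr π X' ε' v l :=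
  ⟨⟨fun x hx => hX (h.1.1 x hx), fun x hx y hy => (h.1.2 x hx y hy).trans_le hε⟩,
    fun x hx => (h.2 x hx).trans_le hε⟩

theorem Cy_mono (hX : X ⊆ X') (hε : ε ≤ ε') (hδ : δ' ≤ δ) {ζ : M → Ch ℝ E}
    (h : Cy π X ε δ q ζ) : Cy π X' ε' δ' q ζ where
  mem v := Sp_mono (fun l hl => ⟨hl.1, Nr_mono hX hε hl.2⟩) (h.mem v)
  bd := h.bd
  hom v v' hv := by
    obtain ⟨y, hy, h1⟩ := h.hom v v' (hv.trans_le hδ)
    exact ⟨y, Sp_mono (fun l hl => ⟨hl.1, Nr_mono hX hε hl.2⟩) hy, h1⟩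

/-- **monotonicity**: larger `X`, larger `ε`, smaller `Y`, smaller `δ` -/
def KD_mono {A : Type} [Fintype A] (hX : X ⊆ X') (hY : Y' ⊆ Y) (hε : ε ≤ ε') (hδ : δ' ≤ δ)
    (K : KD π X Y ε δ q A) : KD π X' Y' ε' δ' q A where
  ζ := K.ζ
  ν := K.ν
  om := K.om
  K := K.K
  cy a := Cy_mono hX hε hδ (K.cy a)
  ν_coc a v l hl h := K.ν_coc a v l hl (Nr_mono hY hδ h)
  om_nil := K.om_nil
  om_spec a v v' l hl hv h h' :=
    K.om_spec a v v' l hl (hv.trans_le hδ) (Nr_mono hY hδ h) (Nr_mono hY hδ h')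
  K_nil := K.K_nil
  K_mem v l h := Sp_mono (fun l' hl' => ⟨hl'.1, Nr_mono hX hε hl'.2⟩)
    (K.K_mem v l (Nr_mono hY hδ h))
  K_spec v l hl h := K.K_spec v l hl (Nr_mono hY hδ h)

@[simp] theorem KD_mono_ζ {A : Type} [Fintype A] (hX : X ⊆ X') (hY : Y' ⊆ Y) (hε : ε ≤ ε')
    (hδ : δ' ≤ δ) (K : KD π X Y ε δ q A) : (KD_mono hX hY hε hδ K).ζ = K.ζ := rfl

end Vale.Agent.P216.V651
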