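import Mathlib

/-!
# P216-V, (LIN): a chain map of vector spaces in one degree

`e₂ : C₂ → C₁`, `e₁ : C₁ → C₀`, `f₂ : D₂ → D₁`, `j₁ : C₁ → D₁` a chain map (`f₂ j₂ = j₁ e₂`). There
are a family `j₁ (y a)` of images of cycles, independent modulo boundaries, and functionals `V` on
`C₁` (cocycles, locally finite), with `j₁ = ∑ V_a j₁ (y a) + s e₁ + f₂ s'`.
-/

namespace Vale.Agent.P216.V651

/-- **(LIN)** -/
theorem lin {k : Type*} [Field k] {C₂ C₁ C₀ D₂ D₁ : Type*}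
    [AddCommGroup C₂] [Module k C₂] [AddCommGroup C₁] [Module k C₁] [AddCommGroup C₀] [Module k C₀]
    [AddCommGroup D₂] [Module k D₂] [AddCommGroup D₁] [Module k D₁]
    (e₂ : C₂ →ₗ[k] C₁) (e₁ : C₁ →ₗ[k] C₀) (f₂ : D₂ →ₗ[k] D₁) (j₂ : C₂ →ₗ[k] D₂)
    (j₁ : C₁ →ₗ[k] D₁) (hj : ∀ c, f₂ (j₂ c) = j₁ (e₂ c)) (he : ∀ c, e₁ (e₂ c) = 0) :
    ∃ (I : Set (LinearMap.range ((LinearMap.range f₂).mkQ ∘ₗ j₁ ∘ₗ
        (LinearMap.ker e₁).subtype))) (y : I → C₁) (V : C₁ →ₗ[k] (I →₀ k)) (s : C₀ →ₗ[k] D₁)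
      (s' : C₁ →ₗ[k] D₂),
      (∀ a, e₁ (y a) = 0) ∧ (∀ c, V (e₂ c) = 0) ∧
      (∀ c, j₁ c = Finsupp.linearCombination k (fun a => j₁ (y a)) (V c) + s (e₁ c) + f₂ (s' c)) ∧
      (∀ r : I →₀ k, Finsupp.linearCombination k (fun a => j₁ (y a)) r ∈ LinearMap.range f₂ →
        r = 0) ∧
      (FiniteDimensional k (LinearMap.range ((LinearMap.range f₂).mkQ ∘ₗ j₁ ∘ₗ
        (LinearMap.ker e₁).subtype)) → Finite I) := by
  classical
  set φ : LinearMap.ker e₁ →ₗ[k] D₁ ⧸ LinearMap.range f₂ :=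
    (LinearMap.range f₂).mkQ ∘ₗ j₁ ∘ₗ (LinearMap.ker e₁).subtype with hφ
  have hφv : ∀ z : LinearMap.ker e₁, φ z = (LinearMap.range f₂).mkQ (j₁ (z : C₁)) := fun z => rfl
  let b := Module.Basis.ofVectorSpace k (LinearMap.range φ)
  have hb : ∀ a, ∃ y : LinearMap.ker e₁, φ y = (b a : D₁ ⧸ LinearMap.range f₂) := fun a =>
    (b a).2
  choose y hy using hb
  -- the projection to the cycles
  obtain ⟨p, hp⟩ := (LinearMap.ker e₁).subtype.exists_leftInverse_of_injective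
    (Submodule.ker_subtype _)
  have hpv : ∀ z : LinearMap.ker e₁, p (z : C₁) = z := fun z => LinearMap.congr_fun hp z
  -- the functionals
  let V : C₁ →ₗ[k] (Module.Basis.ofVectorSpaceIndex k (LinearMap.range φ) →₀ k) :=
    b.repr.toLinearMap ∘ₗ φ.rangeRestrict ∘ₗ p
  have hV : ∀ c, V c = b.repr (φ.rangeRestrict (p c)) := fun c => rfl
  have hlc : ∀ r : Module.Basis.ofVectorSpaceIndex k (LinearMap.range φ) →₀ k,
      (LinearMap.range f₂).mkQ (Finsupp.linearCombination k (fun a => j₁ (y a : C₁)) r) =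
        ((b.repr.symm r : LinearMap.range φ) : D₁ ⧸ LinearMap.range f₂) := by
    intro r
    rw [Module.Basis.repr_symm_apply, Finsupp.apply_linearCombination,
      Finsupp.linearCombination_apply, Finsupp.linearCombination_apply, Finsupp.sum, Finsupp.sum,
      AddSubmonoidClass.coe_finsetSum]
    refine Finset.sum_congr rfl fun a _ => ?_
    simp only [Function.comp_apply]
    rw [← hφv, hy]
    rfl
  -- the contraction on the cycles
  have hB : ∀ z : LinearMap.ker e₁, j₁ (z : C₁) -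
      Finsupp.linearCombination k (fun a => j₁ (y a : C₁)) (V z) ∈ LinearMap.range f₂ := by
    intro z
    rw [← Submodule.Quotient.mk_eq_zero, ← Submodule.mkQ_apply, map_sub, hlc, hV, hpv,
      LinearEquiv.symm_apply_apply]
    exact sub_eq_zero.2 (hφv z).symm
  obtain ⟨σ', hσ'⟩ := f₂.rangeRestrict.exists_rightInverse_of_surjective
    (LinearMap.range_rangeRestrict f₂)
  have hσ'v : ∀ x : LinearMap.range f₂, f₂ (σ' x) = x := fun x =>
    congrArg Subtype.val (LinearMap.congr_fun hσ' x)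
  let g : LinearMap.ker e₁ →ₗ[k] LinearMap.range f₂ :=
    LinearMap.codRestrict (LinearMap.range f₂) ((j₁ -
      Finsupp.linearCombination k (fun a => j₁ (y a : C₁)) ∘ₗ V) ∘ₗ (LinearMap.ker e₁).subtype)
      (fun z => hB z)
  have hg : ∀ z : LinearMap.ker e₁, (g z : D₁) = j₁ (z : C₁) -
      Finsupp.linearCombination k (fun a => j₁ (y a : C₁)) (V z) := fun z => rfl
  -- the map on the boundaries
  obtain ⟨σ, hσ⟩ := e₁.rangeRestrict.exists_rightInverse_of_surjective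
    (LinearMap.range_rangeRestrict e₁)
  have hσv : ∀ x : LinearMap.range e₁, e₁ (σ x) = x := fun x =>
    congrArg Subtype.val (LinearMap.congr_fun hσ x)
  obtain ⟨π, hπ⟩ := (LinearMap.range e₁).subtype.exists_leftInverse_of_injective
    (Submodule.ker_subtype _)
  have hπv : ∀ x : LinearMap.range e₁, π (x : C₀) = x := fun x => LinearMap.congr_fun hπ x
  let κ : C₁ →ₗ[k] C₁ := LinearMap.id - (LinearMap.ker e₁).subtype ∘ₗ p
  have hκ : ∀ c, κ c = c - (p c : C₁) := fun c => rfl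
  have hκ0 : ∀ z : C₁, e₁ z = 0 → κ z = 0 := fun z hz => by
    rw [hκ, hpv ⟨z, hz⟩, sub_self]
  refine ⟨Module.Basis.ofVectorSpaceIndex k (LinearMap.range φ), fun a => (y a : C₁), V,
    j₁ ∘ₗ κ ∘ₗ σ ∘ₗ π, σ' ∘ₗ g ∘ₗ p, fun a => (y a).2, fun c => ?_, fun c => ?_, fun r hr => ?_,
    fun _ => Module.Finite.finite_basis b⟩
  · rw [hV, hpv ⟨e₂ c, he c⟩]
    have h1 : φ.rangeRestrict ⟨e₂ c, he c⟩ = 0 := by
      refine Subtype.ext ?_
      change φ ⟨e₂ c, he c⟩ = 0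
      rw [hφv]
      change (LinearMap.range f₂).mkQ (j₁ (e₂ c)) = 0
      rw [← hj, Submodule.mkQ_apply, Submodule.Quotient.mk_eq_zero]
      exact LinearMap.mem_range_self f₂ _
    rw [h1, map_zero]
  · have h1 : (j₁ ∘ₗ κ ∘ₗ σ ∘ₗ π) (e₁ c) = j₁ (κ c) := by
      change j₁ (κ (σ (π (e₁ c)))) = j₁ (κ c)
      have h2 : π (e₁ c) = ⟨e₁ c, LinearMap.mem_range_self e₁ c⟩ :=
        hπv ⟨e₁ c, LinearMap.mem_range_self e₁ c⟩
      rw [h2, ← sub_eq_zero, ← map_sub, ← map_sub, hκ0, map_zero]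
      rw [map_sub, hσv, sub_self]
    have h2 : f₂ ((σ' ∘ₗ g ∘ₗ p) c) = j₁ (p c : C₁) -
        Finsupp.linearCombination k (fun a => j₁ (y a : C₁)) (V c) := by
      change f₂ (σ' (g (p c))) = _
      rw [hσ'v, hg, hV, hV, hpv]
    rw [h1, h2, hκ, map_sub]
    abel
  · have h1 := hlc r
    rw [Submodule.mkQ_apply, (Submodule.Quotient.mk_eq_zero _).2 hr] at h1
    have h2 : b.repr.symm r = 0 := Subtype.ext h1.symm
    exact b.repr.symm.map_eq_zero_iff.1 h2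

/-- the values of the functionals on the cycles -/
theorem lin_self {k : Type*} [Field k] {C₁ C₀ D₂ D₁ I : Type*}
    [AddCommGroup C₁] [Module k C₁] [AddCommGroup C₀] [Module k C₀]
    [AddCommGroup D₂] [Module k D₂] [AddCommGroup D₁] [Module k D₁]
    {e₁ : C₁ →ₗ[k] C₀} {f₂ : D₂ →ₗ[k] D₁} {j₁ : C₁ →ₗ[k] D₁} {y : I → C₁} {V : C₁ →ₗ[k] (I →₀ k)}
    {s : C₀ →ₗ[k] D₁} {s' : C₁ →ₗ[k] D₂} (hy : ∀ a, e₁ (y a) = 0)
    (h : ∀ c, j₁ c = Finsupp.linearCombination k (fun a => j₁ (y a)) (V c) + s (e₁ c) + f₂ (s' c))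
    (hi : ∀ r : I →₀ k, Finsupp.linearCombination k (fun a => j₁ (y a)) r ∈ LinearMap.range f₂ →
        r = 0) (a : I) : V (y a) = Finsupp.single a 1 := by
  have h1 := h (y a)
  rw [hy, map_zero, add_zero] at h1
  rw [← sub_eq_zero]
  refine hi _ ⟨-s' (y a), ?_⟩
  rw [map_neg, map_sub, Finsupp.linearCombination_single, one_smul]
  have h2 : Finsupp.linearCombination k (fun a => j₁ (y a)) (V (y a)) = j₁ (y a) - f₂ (s' (y a)) :=
    eq_sub_of_add_eq h1.symm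
  rw [h2]
  abel

/-- **(LIN) for cochains with values in a vector space**: a cochain `F` on `D` which kills the
boundaries is on `C₁` the sum of the `V_a ⊗ F (j₁ (y a))` and of the coboundary of `F ∘ s`. -/
theorem lin_coch {k : Type*} [Field k] {C₁ C₀ D₂ D₁ I L : Type*}
    [AddCommGroup C₁] [Module k C₁] [AddCommGroup C₀] [Module k C₀]
    [AddCommGroup D₂] [Module k D₂] [AddCommGroup D₁] [Module k D₁] [AddCommGroup L] [Module k L]
    {e₁ : C₁ →ₗ[k] C₀} {f₂ : D₂ →ₗ[k] D₁} {j₁ : C₁ →ₗ[k] D₁} {y : I → C₁} {V : C₁ →ₗ[k] (I →₀ k)}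
    {s : C₀ →ₗ[k] D₁} {s' : C₁ →ₗ[k] D₂}
    (h : ∀ c, j₁ c = Finsupp.linearCombination k (fun a => j₁ (y a)) (V c) + s (e₁ c) + f₂ (s' c))
    (F : D₁ →ₗ[k] L) (hF : ∀ x, F (f₂ x) = 0) (c : C₁) :
    F (j₁ c) = Finsupp.linearCombination k (fun a => F (j₁ (y a))) (V c) + F (s (e₁ c)) := by
  conv_lhs => rw [h c]
  rw [map_add, map_add, hF, add_zero, Finsupp.apply_linearCombination]
  rfl

end Vale.Agent.P216.V651
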